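import Vale.Agent.P038.H419.Inner

/-!
# Seymour's second neighbourhood conjecture

`(G)` (helper294, note 20944, unweighted): in a counterexample with the fewest arcs every set `S`
that is not out-closed has fewer second out-neighbours than first out-neighbours. Together with
`min inner ≤ min outer` this gives the conjecture.
-/

namespace Vale.Agent.P038.H419

open Finset

set_option linter.unusedSectionVars false

variable {V : Type*} [Fintype V] [DecidableEq V]

theorem mem_cl' {D : OGraph V} {S : Finset V} {z : V} :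
    z ∈ cl D S ↔ z ∈ S ∨ ∃ y ∈ S, D.arc y z := by
  rw [mem_cl]
  constructor
  · rintro ⟨y, hy, rfl | hyz⟩
    · exact Or.inl hy
    · exact Or.inr ⟨y, hy, hyz⟩
  · rintro (hz | ⟨y, hy, hyz⟩)
    · exact ⟨z, hz, Or.inl rfl⟩
    · exact ⟨y, hy, Or.inr hyz⟩

/-- A counterexample. -/
def CE (D : OGraph V) : Prop := ∀ v, (N2 D v).card < (N1 D v).card

/-- The number of arcs. -/
noncomputable def nArcs (D : OGraph V) : ℕ := ∑ v, (N1 D v).card

/-- Delete all arcs from `X` to `Z`. -/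
def del (D : OGraph V) (X Z : Finset V) : OGraph V where
  arc u v := D.arc u v ∧ ¬ (u ∈ X ∧ v ∈ Z)
  loopless v h := D.loopless v h.1
  asymm u v h h' := D.asymm u v h.1 h'.1

theorem row_out {D : OGraph V} (X Z : Finset V) {y : V} (hy : y ∉ X)
    (h : (N2 D y).card < (N1 D y).card) :
    (N2 (del D X Z) y).card < (N1 (del D X Z) y).card := by
  have h1 : N1 (del D X Z) y = N1 D y := by
    ext z
    rw [mem_N1, mem_N1]
    exact ⟨fun h3 => h3.1, fun h3 => ⟨h3, fun h4 => hy h4.1⟩⟩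
  have h2 : N2 (del D X Z) y ⊆ N2 D y := by
    intro z hz
    rw [mem_N2] at hz ⊢
    obtain ⟨hzv, hnz, c, hvc, hcz⟩ := hz
    exact ⟨hzv, fun h3 => hnz ⟨h3, fun h4 => hy h4.1⟩, c, hvc.1, hcz.1⟩
  have h3 := card_le_card h2
  rw [h1]
  omega

/-- `d(T) = |N[T] \ X| - 2|T|`. -/
noncomputable def dd (D : OGraph V) (X T : Finset V) : ℤ :=
  ((cl D T \ X).card : ℤ) - 2 * T.card

theorem cl_union (D : OGraph V) (S T : Finset V) : cl D (S ∪ T) = cl D S ∪ cl D T := by
  ext z
  simp only [mem_cl, mem_union]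
  constructor
  · rintro ⟨y, hy | hy, hz⟩
    · exact Or.inl ⟨y, hy, hz⟩
    · exact Or.inr ⟨y, hy, hz⟩
  · rintro (⟨y, hy, hz⟩ | ⟨y, hy, hz⟩)
    · exact ⟨y, Or.inl hy, hz⟩
    · exact ⟨y, Or.inr hy, hz⟩

theorem row_in {D : OGraph V} (X T : Finset V) {y : V} (hy : y ∈ X)
    (h : (N2 D y).card < (N1 D y).card)
    (hd : dd D X T ≤ dd D X (T ∪ (N1 D y ∩ ((cl D X \ X) \ T)))) :
    (N2 (del D X ((cl D X \ X) \ T)) y).card < (N1 (del D X ((cl D X \ X) \ T)) y).card := by
  set L := cl D X \ X with hL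
  set Z := L \ T with hZ
  set D' := del D X Z with hD'
  set Dy := N1 D y ∩ Z with hDy
  set Ey := cl D Dy \ (cl D T ∪ X) with hEy
  have hN1 : N1 D' y = N1 D y \ Dy := by
    ext z
    rw [mem_N1, Finset.mem_sdiff, hDy, Finset.mem_inter, mem_N1]
    constructor
    · rintro ⟨h1, h2⟩
      exact ⟨h1, fun h3 => h2 ⟨hy, h3.2⟩⟩
    · rintro ⟨h1, h2⟩
      exact ⟨h1, fun h3 => h2 ⟨h1, h3.2⟩⟩
  have hout : ∀ {u z : V}, u ∈ X → D.arc u z → z ∉ X → z ∈ L := fun hu huz hz =>
    Finset.mem_sdiff.2 ⟨mem_cl'.2 (Or.inr ⟨_, hu, huz⟩), hz⟩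
  have hEsub : Ey ⊆ N2 D y ∪ Dy := by
    intro z hz
    obtain ⟨hz1, hz2⟩ := Finset.mem_sdiff.1 hz
    have hzX : z ∉ X := fun h3 => hz2 (Finset.mem_union_right _ h3)
    have hzT : z ∉ cl D T := fun h3 => hz2 (Finset.mem_union_left _ h3)
    rw [mem_cl'] at hz1
    rcases hz1 with hz1 | ⟨c, hc, hcz⟩
    · exact Finset.mem_union_right _ hz1
    · have hyc : D.arc y c := mem_N1.1 (Finset.mem_inter.1 hc).1
      by_cases hyz : D.arc y z
      · refine Finset.mem_union_right _ (Finset.mem_inter.2 ⟨mem_N1.2 hyz, ?_⟩)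
        exact Finset.mem_sdiff.2 ⟨hout hy hyz hzX, fun h3 => hzT (mem_cl'.2 (Or.inl h3))⟩
      · refine Finset.mem_union_left _ (mem_N2.2 ⟨?_, hyz, c, hyc, hcz⟩)
        rintro rfl
        exact hzX hy
  have hN2 : N2 D' y ⊆ (N2 D y ∪ Dy) \ Ey := by
    intro z hz
    rw [mem_N2] at hz
    obtain ⟨hzy, hnz, c, hyc, hcz⟩ := hz
    refine Finset.mem_sdiff.2 ⟨?_, ?_⟩
    · by_cases hyz : D.arc y z
      · refine Finset.mem_union_right _ (Finset.mem_inter.2 ⟨mem_N1.2 hyz, ?_⟩)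
        by_contra hzZ
        exact hnz ⟨hyz, fun h3 => hzZ h3.2⟩
      · exact Finset.mem_union_left _ (mem_N2.2 ⟨hzy, hyz, c, hyc.1, hcz.1⟩)
    · intro hzE
      obtain ⟨_, hz2⟩ := Finset.mem_sdiff.1 hzE
      have hzX : z ∉ X := fun h3 => hz2 (Finset.mem_union_right _ h3)
      have hzT : z ∉ cl D T := fun h3 => hz2 (Finset.mem_union_left _ h3)
      by_cases hcX : c ∈ X
      · have hzZ : z ∈ Z := Finset.mem_sdiff.2 ⟨hout hcX hcz.1 hzX,
          fun h3 => hzT (mem_cl'.2 (Or.inl h3))⟩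
        exact hcz.2 ⟨hcX, hzZ⟩
      · have hcL : c ∈ L := hout hy hyc.1 hcX
        have hcT : c ∈ T := by
          by_contra hcT
          exact hyc.2 ⟨hy, Finset.mem_sdiff.2 ⟨hcL, hcT⟩⟩
        exact hzT (mem_cl'.2 (Or.inr ⟨c, hcT, hcz.1⟩))
  have h1 := card_le_card hN2
  have h1a := card_sdiff_add_card_eq_card hEsub
  have h1b : Disjoint (N2 D y) Dy := by
    rw [Finset.disjoint_left]
    intro z hz hz'
    exact (mem_N2.1 hz).2.1 (mem_N1.1 (Finset.mem_inter.1 hz').1)
  rw [card_union_of_disjoint h1b] at h1a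
  have h2 : (N1 D' y).card + Dy.card = (N1 D y).card := by
    rw [hN1]
    exact card_sdiff_add_card_eq_card Finset.inter_subset_left
  have hDT : Disjoint T Dy := by
    rw [Finset.disjoint_left]
    intro z hz hz'
    exact (Finset.mem_sdiff.1 (Finset.mem_inter.1 hz').2).2 hz
  have e1 : cl D (T ∪ Dy) \ X = (cl D T \ X) ∪ Ey := by
    rw [cl_union, hEy]
    ext z
    simp only [Finset.mem_sdiff, Finset.mem_union]
    tauto
  have e2 : Disjoint (cl D T \ X) Ey := by
    rw [Finset.disjoint_left]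
    intro z hz hz'
    exact (Finset.mem_sdiff.1 hz').2 (Finset.mem_union_left _ (Finset.mem_sdiff.1 hz).1)
  unfold dd at hd
  rw [e1, card_union_of_disjoint e2, card_union_of_disjoint hDT] at hd
  omega

/-- (G): the key inequality in a counterexample with the fewest arcs. -/
theorem strictG {D : OGraph V} (hCE : CE D) (hmin : ∀ D' : OGraph V, nArcs D' < nArcs D → ¬ CE D')
    (S : Finset V) (hS : cl D S ≠ S) : hh D (cl D S) < hh D S := by
  classical
  set L := cl D S \ S with hL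
  have hSc : S ⊆ cl D S := fun x hx => mem_cl'.2 (Or.inl hx)
  have hLne : L.Nonempty := by
    rw [nonempty_iff_ne_empty]
    intro h0
    exact hS (Subset.antisymm (sdiff_eq_empty_iff_subset.1 h0) hSc)
  have hSL : cl D S = S ∪ L := (union_sdiff_of_subset hSc).symm
  have hcc : cl D (cl D S) = S ∪ (cl D L \ S) := by
    have hLc : L ⊆ cl D L := fun x hx => mem_cl'.2 (Or.inl hx)
    conv_lhs => rw [hSL, cl_union, hSL]
    ext z
    simp only [mem_union, mem_sdiff]
    constructor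
    · rintro ((h1 | h1) | h1)
      · exact Or.inl h1
      · by_cases h2 : z ∈ S
        · exact Or.inl h2
        · exact Or.inr ⟨hLc h1, h2⟩
      · by_cases h2 : z ∈ S
        · exact Or.inl h2
        · exact Or.inr ⟨h1, h2⟩
    · rintro (h1 | h1)
      · exact Or.inl (Or.inl h1)
      · exact Or.inr h1.1
  have hd1 : Disjoint S L := disjoint_sdiff
  have hd2 : Disjoint S (cl D L \ S) := disjoint_sdiff
  have c1 : (cl D S).card = S.card + L.card := by
    conv_lhs => rw [hSL]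
    exact card_union_of_disjoint hd1
  have c2 : (cl D (cl D S)).card = S.card + (cl D L \ S).card := by
    rw [hcc]
    exact card_union_of_disjoint hd2
  by_contra hcon
  push Not at hcon
  have hdL : 0 ≤ dd D S L := by
    unfold hh at hcon
    unfold dd
    omega
  obtain ⟨T, hT, hTmin⟩ := exists_min_image L.ssubsets (dd D S)
    ⟨∅, mem_ssubsets.2 (empty_ssubset.2 hLne)⟩
  rw [mem_ssubsets] at hT
  have hT0 : dd D S T ≤ 0 := by
    have h1 := hTmin ∅ (mem_ssubsets.2 (empty_ssubset.2 hLne))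
    have h2 : dd D S ∅ = 0 := by
      have : cl D ∅ = (∅ : Finset V) := by
        ext z
        simp [mem_cl]
      unfold dd
      rw [this]
      simp
    linarith
  have hTall : ∀ T' ⊆ L, dd D S T ≤ dd D S T' := by
    intro T' hT'
    rcases eq_or_ssubset_of_subset hT' with h1 | h1
    · rw [h1]
      linarith
    · exact hTmin T' (mem_ssubsets.2 h1)
  refine hmin (del D S (L \ T)) ?_ fun v => ?_
  · obtain ⟨z, hzL, hzT⟩ := exists_of_ssubset hT
    obtain ⟨hz1, hz2⟩ := mem_sdiff.1 hzL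
    rcases mem_cl'.1 hz1 with h1 | ⟨y, hy, hyz⟩
    · exact absurd h1 hz2
    unfold nArcs
    have hsub : ∀ v, N1 (del D S (L \ T)) v ⊆ N1 D v := by
      intro v x hx
      rw [mem_N1] at hx ⊢
      exact hx.1
    refine Finset.sum_lt_sum (fun v _ => Finset.card_le_card (hsub v)) ⟨y, Finset.mem_univ _, ?_⟩
    refine Finset.card_lt_card (Finset.ssubset_iff_subset_ne.2 ⟨hsub y, fun he => ?_⟩)
    have h1 : z ∈ N1 (del D S (L \ T)) y := by
      rw [he]
      exact mem_N1.2 hyz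
    exact (mem_N1.1 h1).2 ⟨hy, mem_sdiff.2 ⟨hzL, hzT⟩⟩
  · by_cases hv : v ∈ S
    · exact row_in S T hv (hCE v) (hTall _ (union_subset hT.1
        (inter_subset_right.trans sdiff_subset)))
    · exact row_out S _ hv (hCE v)

/-- A pair of the inner problem cannot be out-closed when all outdegrees are positive. -/
theorem Inn.not_closed [Nonempty V] {D : OGraph V} (hpos : ∀ v, ∃ u, D.arc v u)
    {X Y : V → Finset V} (h : Inn D X Y) (hX : ∀ a, cl D (X a) = X a)
    (hY : ∀ a, cl D (Y a) = Y a) : False := by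
  classical
  obtain ⟨C, hC, hCmin⟩ := exists_min_image
    ((univ : Finset (Finset V)).filter fun C => C.Nonempty ∧ cl D C = C) Finset.card
    ⟨univ, by
      rw [mem_filter]
      exact ⟨mem_univ _, univ_nonempty, Subset.antisymm (subset_univ _)
        fun x hx => mem_cl'.2 (Or.inl hx)⟩⟩
  obtain ⟨⟨b, hb⟩, hCc⟩ := (mem_filter.1 hC).2
  obtain ⟨b', hbb'⟩ := hpos b
  have hb' : b' ∈ C := by
    rw [← hCc]
    exact mem_cl'.2 (Or.inr ⟨b, hb, hbb'⟩)
  have h1 : cl D (C ∩ Y b') = C ∩ Y b' := by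
    refine Subset.antisymm ?_ fun x hx => mem_cl'.2 (Or.inl hx)
    intro z hz
    obtain ⟨y, hy, hyz⟩ := mem_cl.1 hz
    obtain ⟨hy1, hy2⟩ := mem_inter.1 hy
    refine mem_inter.2 ⟨?_, ?_⟩
    · rw [← hCc]
      exact mem_cl.2 ⟨y, hy1, hyz⟩
    · rw [← hY b']
      exact mem_cl.2 ⟨y, hy2, hyz⟩
  have h2 := hCmin (C ∩ Y b') (mem_filter.2 ⟨mem_univ _,
    ⟨b', mem_inter.2 ⟨hb', h.sy b'⟩⟩, h1⟩)
  have h3 : C ∩ Y b' = C := eq_of_subset_of_card_le inter_subset_left h2
  have h4 : b ∈ Y b' := by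
    have : b ∈ C ∩ Y b' := by
      rw [h3]
      exact hb
    exact (mem_inter.1 this).2
  have h5 := h.comp b b' (mem_cl'.2 (Or.inr ⟨b, h.sx b, hbb'⟩)) (mem_cl'.2 (Or.inl h4))
  subst h5
  exact D.loopless _ hbb'

theorem no_min_CE [Nonempty V] {D : OGraph V} (hCE : CE D)
    (hmin : ∀ D' : OGraph V, nArcs D' < nArcs D → ¬ CE D') : False := by
  have hpos : ∀ v, ∃ u, D.arc v u := by
    intro v
    have h1 := hCE v
    have h2 : (N1 D v).Nonempty := card_pos.1 (by omega)
    obtain ⟨u, hu⟩ := h2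
    exact ⟨u, mem_N1.1 hu⟩
  have hle : ∀ S, hh D (cl D S) ≤ hh D S := by
    intro S
    by_cases hS : cl D S = S
    · rw [hS]
    · exact (strictG hCE hmin S hS).le
  obtain ⟨B, U, hBU⟩ := exists_minPair D
  obtain ⟨X, Y, hXY, hcost⟩ := hBU.cand
  obtain ⟨B', U', hBU', hcost'⟩ := hXY.outer
  have h1 := hBU.min B' U' hBU'
  have h2 : ∑ a, hh D (X a) + ∑ b, hh D (Y b) ≤
      ∑ a, hh D (cl D (X a)) + ∑ b, hh D (cl D (Y b)) := by
    unfold Gi at hcost
    linarith
  have h3 : ∑ a, hh D (cl D (X a)) ≤ ∑ a, hh D (X a) := sum_le_sum fun a _ => hle _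
  have h4 : ∑ a, hh D (cl D (Y a)) ≤ ∑ a, hh D (Y a) := sum_le_sum fun a _ => hle _
  refine hXY.not_closed hpos ?_ ?_
  · intro a
    by_contra hcon
    have h5 : ∑ a, hh D (cl D (X a)) < ∑ a, hh D (X a) :=
      sum_lt_sum (fun a _ => hle _) ⟨a, mem_univ _, strictG hCE hmin _ hcon⟩
    linarith
  · intro a
    by_contra hcon
    have h5 : ∑ a, hh D (cl D (Y a)) < ∑ a, hh D (Y a) :=
      sum_lt_sum (fun a _ => hle _) ⟨a, mem_univ _, strictG hCE hmin _ hcon⟩
    linarith

theorem snc_aux [Nonempty V] : ∀ n : ℕ, ∀ D : OGraph V, nArcs D = n → ¬ CE D := by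
  intro n
  induction n using Nat.strong_induction_on with
  | _ n ih =>
    intro D hD hCE
    refine no_min_CE hCE fun D' hD' => ?_
    exact ih _ (hD ▸ hD') D' rfl

/-- **Seymour's second neighbourhood conjecture.** -/
theorem snc {V : Type*} [Fintype V] [Nonempty V] (D : OGraph V) :
    ∃ v, (N1 D v).card ≤ (N2 D v).card := by
  classical
  by_contra hcon
  push Not at hcon
  exact snc_aux _ D rfl hcon

end Vale.Agent.P038.H419
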