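import Vale.Agent.P038.Defs

/-!
# The gap inequality (proof of note 22727, helper787), unweighted
-/

namespace Vale.Agent.P038.H419

open Finset

set_option linter.unusedSectionVars false

variable {V : Type*} [Fintype V] [DecidableEq V]

/-- `b ∈ N[a]`. -/
def Rr (D : OGraph V) (a b : V) : Prop := a = b ∨ D.arc a b

open Classical in
/-- The closed out-neighbourhood of a set. -/
noncomputable def cl (D : OGraph V) (S : Finset V) : Finset V :=
  univ.filter fun z => ∃ y ∈ S, Rr D y z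

theorem mem_cl {D : OGraph V} {S : Finset V} {z : V} : z ∈ cl D S ↔ ∃ y ∈ S, Rr D y z := by
  simp [cl]

/-- The number of the new vertices in `N[S]`. -/
noncomputable def hh (D : OGraph V) (S : Finset V) : ℤ := ((cl D S).card : ℤ) - S.card

theorem h_submod (D : OGraph V) (S T : Finset V) :
    hh D (S ∪ T) + hh D (S ∩ T) ≤ hh D S + hh D T := by
  have e1 : cl D (S ∪ T) = cl D S ∪ cl D T := by
    ext z
    simp only [mem_cl, mem_union]
    constructor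
    · rintro ⟨y, hy | hy, hz⟩
      · exact Or.inl ⟨y, hy, hz⟩
      · exact Or.inr ⟨y, hy, hz⟩
    · rintro (⟨y, hy, hz⟩ | ⟨y, hy, hz⟩)
      · exact ⟨y, Or.inl hy, hz⟩
      · exact ⟨y, Or.inr hy, hz⟩
  have e2 : cl D (S ∩ T) ⊆ cl D S ∩ cl D T := by
    intro z hz
    obtain ⟨y, hy, hyz⟩ := mem_cl.1 hz
    exact mem_inter.2 ⟨mem_cl.2 ⟨y, (mem_inter.1 hy).1, hyz⟩,
      mem_cl.2 ⟨y, (mem_inter.1 hy).2, hyz⟩⟩
  have h1 := card_union_add_card_inter S T
  have h2 := card_union_add_card_inter (cl D S) (cl D T)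
  have h3 := card_le_card e2
  unfold hh
  rw [e1]
  omega

/-- The minimum of `hh` between `P ∪ (W ∩ Q)` and `Q`. -/
theorem exists_k (D : OGraph V) {P Q : Finset V} (hPQ : P ⊆ Q) (W : Finset V) :
    ∃ k : ℤ, (∃ Y, P ⊆ Y ∧ W ∩ Q ⊆ Y ∧ Y ⊆ Q ∧ hh D Y = k) ∧
      ∀ Y, P ⊆ Y → W ∩ Q ⊆ Y → Y ⊆ Q → k ≤ hh D Y := by
  obtain ⟨Y, hY, hmin⟩ := exists_min_image
    ((univ : Finset (Finset V)).filter fun Y => P ⊆ Y ∧ W ∩ Q ⊆ Y ∧ Y ⊆ Q) (hh D)
    ⟨Q, by simp [hPQ]⟩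
  rw [mem_filter] at hY
  refine ⟨hh D Y, ⟨Y, hY.2.1, hY.2.2.1, hY.2.2.2, rfl⟩, fun Z h1 h2 h3 => hmin Z ?_⟩
  rw [mem_filter]
  exact ⟨mem_univ _, h1, h2, h3⟩

/-- Layer cake. -/
theorem lc (s : Finset V) (f : V → ℕ) (N : ℕ) (hN : ∀ a ∈ s, f a ≤ N) :
    ∑ a ∈ s, f a = ∑ t ∈ range N, (s.filter fun a => t < f a).card := by
  simp_rw [card_filter]
  rw [sum_comm]
  refine sum_congr rfl fun a ha => ?_
  rw [← card_filter]
  have : (range N).filter (fun t => t < f a) = range (f a) := by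
    ext t
    simp only [mem_filter, mem_range]
    have := hN a ha
    omega
  rw [this, card_range]

/-- The comparison of two nonnegative functions by the Hall condition. -/
theorem layer (D : OGraph V) (α γ : V → ℤ) (G T : Finset V) (h0 : ∀ a, a ∉ G → α a ≤ 0)
    (hγ : ∀ z, 0 ≤ γ z) (hm : ∀ a ∈ G, ∀ z ∈ T, Rr D a z → α a ≤ γ z)
    (hall : ∀ S ⊆ G, ∃ S' ⊆ T, S.card ≤ S'.card ∧ ∀ z ∈ S', ∃ a ∈ S, Rr D a z) :
    ∑ a, α a ≤ ∑ z, γ z := by
  set N : ℕ := ∑ a, (α a).toNat + ∑ z, (γ z).toNat with hN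
  have hNa : ∀ a, (α a).toNat ≤ N := by
    intro a
    have := single_le_sum (f := fun a => (α a).toNat) (fun i _ => Nat.zero_le _) (mem_univ a)
    omega
  have hNz : ∀ z, (γ z).toNat ≤ N := by
    intro a
    have := single_le_sum (f := fun a => (γ a).toNat) (fun i _ => Nat.zero_le _) (mem_univ a)
    omega
  have h1 : ∑ a ∈ G, (α a).toNat ≤ ∑ z, (γ z).toNat := by
    rw [lc G _ N fun a _ => hNa a, lc univ _ N fun a _ => hNz a]
    refine sum_le_sum fun t _ => ?_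
    obtain ⟨S', hS', hc, hS''⟩ := hall (G.filter fun a => t < (α a).toNat) (filter_subset _ _)
    refine hc.trans (card_le_card fun z hz => ?_)
    rw [mem_filter]
    refine ⟨mem_univ _, ?_⟩
    obtain ⟨a, ha, haz⟩ := hS'' z hz
    rw [mem_filter] at ha
    have := hm a ha.1 z (hS' hz) haz
    omega
  have h2 : ∑ a, α a ≤ ((∑ a ∈ G, (α a).toNat : ℕ) : ℤ) := by
    have e : ((∑ a ∈ G, (α a).toNat : ℕ) : ℤ) = ∑ a, if a ∈ G then ((α a).toNat : ℤ) else 0 := by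
      rw [Nat.cast_sum, ← sum_filter]
      simp
    rw [e]
    refine sum_le_sum fun a _ => ?_
    split_ifs with ha
    · omega
    · exact h0 a ha
  have h3 : ((∑ z, (γ z).toNat : ℕ) : ℤ) = ∑ z, γ z := by
    rw [Nat.cast_sum]
    exact sum_congr rfl fun z _ => Int.toNat_of_nonneg (hγ z)
  calc ∑ a, α a ≤ ((∑ a ∈ G, (α a).toNat : ℕ) : ℤ) := h2
    _ ≤ ((∑ z, (γ z).toNat : ℕ) : ℤ) := by exact_mod_cast h1
    _ = _ := h3

end Vale.Agent.P038.H419
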