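import Vale.Agent.P038.H419.Outer

/-!
# The inner problem: `min inner ≤ min outer`
-/

namespace Vale.Agent.P038.H419

open Finset

set_option linter.unusedSectionVars false

variable {V : Type*} [Fintype V] [DecidableEq V]

/-- A feasible pair of the inner problem. -/
structure Inn (D : OGraph V) (X Y : V → Finset V) : Prop where
  sx : ∀ a, a ∈ X a
  sy : ∀ b, b ∈ Y b
  comp : ∀ a b, b ∈ cl D (X a) → a ∈ cl D (Y b) → a = b

/-- The cost of the inner problem. -/
noncomputable def Gi (D : OGraph V) (X Y : V → Finset V) : ℤ :=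
  ∑ a, hh D (X a) + ∑ b, hh D (Y b)

theorem swap_card (F : V → Finset V) :
    ∑ x, (((univ.filter fun z => x ∈ F z).card : ℕ) : ℤ) = ∑ z, ((F z).card : ℤ) := by
  have : ∑ x, (univ.filter fun z => x ∈ F z).card = ∑ z, (F z).card := by
    simp_rw [card_filter]
    rw [sum_comm]
    refine sum_congr rfl fun z _ => ?_
    rw [← card_filter]
    simp
  exact_mod_cast this

/-- The shifted pair of an optimal outer pair. -/
theorem MinPair.cand {D : OGraph V} {B U : V → Finset V} (h : MinPair D B U) :
    ∃ X Y, Inn D X Y ∧ Gi D X Y ≤ Go D B U := by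
  classical
  set Y : V → Finset V := fun x => univ.filter fun z => z = x ∨ x ∉ cl D (U z) with hYdef
  refine ⟨mt D B, Y, ⟨fun a => mem_mt.2 fun s hs => h.base s a hs, fun b => by simp [hYdef], ?_⟩,
    ?_⟩
  · intro a b hb ha
    obtain ⟨x, hx, hxb⟩ := mem_cl.1 hb
    obtain ⟨z, hz, hza⟩ := mem_cl.1 ha
    have hxz : x ∈ B z := mem_mt.1 hx z hza
    have hbz : b ∈ cl D (U z) := mem_cl.2 ⟨x, h.sub z hxz, hxb⟩
    have hzb : z = b := ((mem_filter.1 hz).2).resolve_right fun h5 => h5 hbz
    subst hzb
    rcases hza with hza | hza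
    · exact hza.symm
    · exfalso
      rcases hxb with hxb | hxb
      · subst hxb
        exact h.norev a x hza (h.sub a (mem_mt.1 hx a (Or.inl rfl)))
      · exact h.norev z x hxb (h.sub z hxz)
  · have hY : ∀ x, hh D (Y x) ≤ (((univ.filter fun z => x ∈ cl D (U z)).card : ℕ) : ℤ) -
        (((univ.filter fun z => x ∈ cl D (mt D U z)).card : ℕ) : ℤ) := by
      intro x
      have hxU : ∀ v, v ∈ U v := fun v => h.sub v (h.base v v (Or.inl rfl))
      have e1 := card_union_add_card_inter (Y x) (univ.filter fun z => x ∈ cl D (U z))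
      have e2 : Y x ∪ (univ.filter fun z => x ∈ cl D (U z)) = univ := by
        ext z
        simp only [hYdef, mem_union, mem_filter, mem_univ, true_and, iff_true]
        tauto
      have e3 : Y x ∩ (univ.filter fun z => x ∈ cl D (U z)) = {x} := by
        ext z
        simp only [hYdef, mem_inter, mem_filter, mem_univ, true_and, mem_singleton]
        constructor
        · rintro ⟨h1 | h1, h2⟩
          · exact h1
          · exact absurd h2 h1
        · rintro rfl
          exact ⟨Or.inl rfl, mem_cl.2 ⟨z, hxU z, Or.inl rfl⟩⟩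
      rw [e2, e3, card_singleton] at e1
      set K := univ.filter fun z => x ∈ cl D (mt D U z) with hK
      have hxK : x ∈ K := by
        rw [hK, mem_filter]
        exact ⟨mem_univ _, mem_cl.2 ⟨x, mem_mt.2 fun s hs => h.sub s (h.base s x hs),
          Or.inl rfl⟩⟩
      have e4 : Disjoint (cl D (Y x)) (K.erase x) := by
        rw [disjoint_left]
        intro v hv hvK
        obtain ⟨hvx, hvK⟩ := mem_erase.1 hvK
        obtain ⟨y, hy, hyx⟩ := mem_cl.1 (mem_filter.1 hvK).2
        obtain ⟨z, hz, hzv⟩ := mem_cl.1 hv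
        have hyz : y ∈ U z := mem_mt.1 hy z hzv
        have hxz : x ∈ cl D (U z) := mem_cl.2 ⟨y, hyz, hyx⟩
        have hzx : z = x := ((mem_filter.1 hz).2).resolve_right fun h5 => h5 hxz
        subst hzx
        rcases hzv with hzv | hzv
        · exact hvx hzv.symm
        · rcases hyx with hyx | hyx
          · subst hyx
            exact h.norev v y hzv (mem_mt.1 hy v (Or.inl rfl))
          · exact h.norev z y hyx hyz
      have e5 := card_union_of_disjoint e4
      have e6 : (cl D (Y x) ∪ K.erase x).card ≤ (univ : Finset V).card :=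
        card_le_card (subset_univ _)
      have e7 := card_erase_add_one hxK
      unfold hh
      omega
    have h1 : ∑ x, hh D (Y x) ≤ ∑ z, ((cl D (U z)).card : ℤ) -
        ∑ z, ((cl D (mt D U z)).card : ℤ) := by
      rw [← swap_card fun z => cl D (U z), ← swap_card fun z => cl D (mt D U z),
        ← sum_sub_distrib]
      exact sum_le_sum fun x _ => hY x
    have h2 := h.gap
    have h3 : ∀ F : V → Finset V, ∑ z, hh D (F z) =
        ∑ z, ((cl D (F z)).card : ℤ) - ∑ z, ((F z).card : ℤ) := by
      intro F
      unfold hh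
      rw [sum_sub_distrib]
    rw [sum_sub_distrib, sum_sub_distrib] at h2
    have h4 := h3 U
    have h5 := h3 (mt D U)
    unfold Gi Go
    linarith

/-- From the inner to the outer problem. -/
theorem Inn.outer {D : OGraph V} {X Y : V → Finset V} (h : Inn D X Y) :
    ∃ B U, Pair D B U ∧
      Go D B U ≤ ∑ a, hh D (cl D (X a)) + ∑ b, hh D (cl D (Y b)) := by
  classical
  set U : V → Finset V := fun a => univ.filter fun b => b = a ∨ a ∉ cl D (Y b) with hU
  refine ⟨fun a => cl D (X a), U, ⟨fun a b hab => mem_cl.2 ⟨a, h.sx a, hab⟩, ?_, ?_⟩, ?_⟩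
  · intro a b hb
    rw [hU, mem_filter]
    refine ⟨mem_univ _, ?_⟩
    by_contra hcon
    push Not at hcon
    exact hcon.1 (h.comp a b hb hcon.2).symm
  · intro a y hya hy
    rcases (mem_filter.1 hy).2 with h1 | h1
    · subst h1
      exact D.loopless _ hya
    · exact h1 (mem_cl.2 ⟨y, h.sy y, Or.inr hya⟩)
  · unfold Go
    have hcol : ∀ b, (((univ.filter fun a => b ∈ U a).card : ℕ) : ℤ) -
        (((univ.filter fun z => b ∈ mt D U z).card : ℕ) : ℤ) ≤ hh D (cl D (Y b)) := by
      intro b
      have hbb : b ∈ cl D (Y b) := mem_cl.2 ⟨b, h.sy b, Or.inl rfl⟩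
      have hbbb : b ∈ cl D (cl D (Y b)) := mem_cl.2 ⟨b, hbb, Or.inl rfl⟩
      have e1 := card_union_add_card_inter (univ.filter fun a => b ∈ U a) (cl D (Y b))
      have e2 : (univ.filter fun a => b ∈ U a) ∪ cl D (Y b) = univ := by
        ext a
        simp only [hU, mem_union, mem_filter, mem_univ, true_and, iff_true]
        tauto
      have e3 : (univ.filter fun a => b ∈ U a) ∩ cl D (Y b) = {b} := by
        ext a
        simp only [hU, mem_inter, mem_filter, mem_univ, true_and, mem_singleton]
        constructor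
        · rintro ⟨h1 | h1, h2⟩
          · exact h1.symm
          · exact absurd h2 h1
        · rintro rfl
          exact ⟨Or.inl rfl, hbb⟩
      rw [e2, e3, card_singleton] at e1
      have e4 : insert b (univ \ cl D (cl D (Y b))) ⊆ univ.filter fun z => b ∈ mt D U z := by
        intro z hz
        rw [mem_filter]
        refine ⟨mem_univ _, mem_mt.2 fun a ha => ?_⟩
        rw [hU, mem_filter]
        refine ⟨mem_univ _, ?_⟩
        rcases mem_insert.1 hz with h1 | h1
        · subst h1
          rcases ha with ha | ha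
          · exact Or.inl ha.symm
          · right
            intro h2
            have h3 := h.comp a z (mem_cl.2 ⟨a, h.sx a, Or.inr ha⟩) h2
            subst h3
            exact D.loopless _ ha
        · right
          intro h2
          exact (mem_sdiff.1 h1).2 (mem_cl.2 ⟨a, h2, ha⟩)
      have e5 := card_le_card e4
      rw [card_insert_of_notMem (fun h1 => (mem_sdiff.1 h1).2 hbbb)] at e5
      have e6 := card_sdiff_add_card_eq_card (subset_univ (cl D (cl D (Y b))))
      unfold hh
      omega
    have h1 : ∑ a, ((U a).card : ℤ) - ∑ z, ((mt D U z).card : ℤ) ≤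
        ∑ b, hh D (cl D (Y b)) := by
      rw [← swap_card U, ← swap_card (mt D U), ← sum_sub_distrib]
      exact sum_le_sum fun x _ => hcol x
    linarith

theorem exists_minPair (D : OGraph V) : ∃ B U, MinPair D B U := by
  classical
  have hne : ((univ : Finset ((V → Finset V) × (V → Finset V))).filter
      fun p => Pair D p.1 p.2).Nonempty := by
    have h0 : Inn D (fun a => {a}) (fun a => {a}) := by
      refine ⟨fun a => mem_singleton_self a, fun a => mem_singleton_self a, fun a b hb ha => ?_⟩
      obtain ⟨x, hx, hxb⟩ := mem_cl.1 hb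
      obtain ⟨y, hy, hya⟩ := mem_cl.1 ha
      rw [mem_singleton] at hx hy
      subst hx hy
      rcases hxb with h1 | h1
      · exact h1
      · rcases hya with h2 | h2
        · exact h2.symm
        · exact absurd h2 (D.asymm _ _ h1)
    obtain ⟨B, U, hBU, -⟩ := h0.outer
    exact ⟨(B, U), mem_filter.2 ⟨mem_univ _, hBU⟩⟩
  obtain ⟨p, hp, hmin⟩ := exists_min_image _ (fun p => Go D p.1 p.2) hne
  exact ⟨p.1, p.2, (mem_filter.1 hp).2, fun B' U' h' =>
    hmin (B', U') (mem_filter.2 ⟨mem_univ _, h'⟩)⟩

end Vale.Agent.P038.H419
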