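import Vale.Agent.P038.H419.Gap

/-!
# The outer problem and the gap inequality
-/

namespace Vale.Agent.P038.H419

open Finset

set_option linter.unusedSectionVars false

variable {V : Type*} [Fintype V] [DecidableEq V]

/-- A feasible pair of the outer problem. -/
structure Pair (D : OGraph V) (B U : V → Finset V) : Prop where
  base : ∀ a b, Rr D a b → b ∈ B a
  sub : ∀ a, B a ⊆ U a
  norev : ∀ a y, D.arc y a → y ∉ U a

open Classical in
/-- `M_z`: the intersection of the rows `U_a` over `a ∈ N⁻[z]`. -/
noncomputable def mt (D : OGraph V) (U : V → Finset V) (z : V) : Finset V :=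
  univ.filter fun y => ∀ a, Rr D a z → y ∈ U a

theorem mem_mt {D : OGraph V} {U : V → Finset V} {z y : V} :
    y ∈ mt D U z ↔ ∀ a, Rr D a z → y ∈ U a := by
  simp [mt]

/-- The cost of the outer problem. -/
noncomputable def Go (D : OGraph V) (B U : V → Finset V) : ℤ :=
  ∑ a, hh D (B a) + (∑ a, ((U a).card : ℤ) - ∑ z, ((mt D U z).card : ℤ))

/-- A minimiser of the outer problem. -/
structure MinPair (D : OGraph V) (B U : V → Finset V) : Prop extends Pair D B U where
  min : ∀ B' U', Pair D B' U' → Go D B U ≤ Go D B' U'

theorem MinPair.row {D : OGraph V} {B U : V → Finset V} (h : MinPair D B U) (a : V)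
    (Y : Finset V) (h1 : B a ⊆ Y) (h2 : Y ⊆ U a) : hh D (B a) ≤ hh D Y := by
  have h3 : Pair D (Function.update B a Y) U := by
    refine ⟨fun x b hxb => ?_, fun x => ?_, h.norev⟩
    · by_cases hx : x = a
      · subst hx
        rw [Function.update_self]
        exact h1 (h.base _ _ hxb)
      · rw [Function.update_of_ne hx]
        exact h.base _ _ hxb
    · by_cases hx : x = a
      · subst hx
        rw [Function.update_self]
        exact h2
      · rw [Function.update_of_ne hx]
        exact h.sub _
  have h4 := h.min _ _ h3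
  unfold Go at h4
  have h5 : ∑ x, hh D (Function.update B a Y x) = hh D Y + ∑ x ∈ univ.erase a, hh D (B x) := by
    rw [← add_sum_erase univ _ (mem_univ a), Function.update_self]
    congr 1
    refine sum_congr rfl fun x hx => ?_
    rw [Function.update_of_ne (ne_of_mem_erase hx)]
  have h6 : ∑ x, hh D (B x) = hh D (B a) + ∑ x ∈ univ.erase a, hh D (B x) := by
    rw [← add_sum_erase univ _ (mem_univ a)]
  rw [h5, h6] at h4
  linarith

theorem MinPair.col {D : OGraph V} {B U : V → Finset V} (h : MinPair D B U) (b : V)
    (S : Finset V) (hS : ∀ a ∈ S, b ∈ U a ∧ b ∉ B a) :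
    ∃ S' : Finset V, (∀ z ∈ S', b ∈ mt D U z) ∧ S.card ≤ S'.card ∧
      ∀ z ∈ S', ∃ a ∈ S, Rr D a z := by
  classical
  set S' : Finset V := univ.filter fun z => b ∈ mt D U z ∧ ∃ a ∈ S, Rr D a z with hS'
  refine ⟨S', fun z hz => (mem_filter.1 hz).2.1, ?_, fun z hz => (mem_filter.1 hz).2.2⟩
  set U' : V → Finset V := fun a => if a ∈ S then (U a).erase b else U a with hU'
  have h3 : Pair D B U' := by
    refine ⟨h.base, fun a => ?_, fun a y hya hy => ?_⟩
    · simp only [hU']
      split_ifs with ha
      · intro x hx
        refine mem_erase.2 ⟨?_, h.sub a hx⟩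
        rintro rfl
        exact (hS a ha).2 hx
      · exact h.sub a
    · simp only [hU'] at hy
      split_ifs at hy with ha
      · exact h.norev a y hya (mem_erase.1 hy).2
      · exact h.norev a y hya hy
  have h4 := h.min _ _ h3
  have h5 : ∀ a, ((U' a).card : ℤ) = ((U a).card : ℤ) - if a ∈ S then 1 else 0 := by
    intro a
    simp only [hU']
    split_ifs with ha
    · have h6 := card_erase_add_one (hS a ha).1
      omega
    · simp
  have h6 : ∀ z, ((mt D U' z).card : ℤ) = ((mt D U z).card : ℤ) - if z ∈ S' then 1 else 0 := by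
    intro z
    by_cases hz : ∃ a ∈ S, Rr D a z
    · have e : mt D U' z = (mt D U z).erase b := by
        ext y
        rw [mem_erase, mem_mt, mem_mt]
        constructor
        · intro hy
          obtain ⟨a, ha, haz⟩ := hz
          refine ⟨?_, fun c hc => ?_⟩
          · rintro rfl
            have := hy a haz
            simp only [hU', if_pos ha] at this
            exact (mem_erase.1 this).1 rfl
          · have := hy c hc
            simp only [hU'] at this
            split_ifs at this
            · exact (mem_erase.1 this).2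
            · exact this
        · rintro ⟨hyb, hy⟩ c hc
          simp only [hU']
          split_ifs
          · exact mem_erase.2 ⟨hyb, hy c hc⟩
          · exact hy c hc
      rw [e]
      by_cases hb : b ∈ mt D U z
      · have h7 : z ∈ S' := mem_filter.2 ⟨mem_univ _, hb, hz⟩
        rw [if_pos h7]
        have h8 := card_erase_add_one hb
        omega
      · have h7 : z ∉ S' := fun h8 => hb (mem_filter.1 h8).2.1
        rw [if_neg h7, erase_eq_of_notMem hb]
        simp
    · have e : mt D U' z = mt D U z := by
        ext y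
        rw [mem_mt, mem_mt]
        refine forall_congr' fun c => ?_
        refine imp_congr_right fun hc => ?_
        have : c ∉ S := fun h8 => hz ⟨c, h8, hc⟩
        simp only [hU', if_neg this]
      have h7 : z ∉ S' := fun h8 => hz (mem_filter.1 h8).2.2
      rw [e, if_neg h7]
      simp
  unfold Go at h4
  simp_rw [h5, h6] at h4
  rw [sum_sub_distrib, sum_sub_distrib, sum_ite_mem, sum_ite_mem] at h4
  simp only [univ_inter, sum_const, nsmul_eq_mul, mul_one] at h4
  have : (S.card : ℤ) ≤ S'.card := by linarith
  exact_mod_cast this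

/-- Row optimality for the intersections. -/
theorem MinPair.meet {D : OGraph V} {B U : V → Finset V} (h : MinPair D B U) (z : V)
    (Y : Finset V) (h1 : mt D B z ⊆ Y) (h2 : Y ⊆ mt D U z) : hh D (mt D B z) ≤ hh D Y := by
  classical
  have key : ∀ A : Finset V, (∀ a ∈ A, Rr D a z) →
      hh D (Y.filter fun y => ∀ a ∈ A, y ∈ B a) ≤ hh D Y := by
    intro A
    induction A using Finset.induction_on with
    | empty => intro _; simp
    | insert a A ha ih =>
      intro hA
      have h3 := ih fun x hx => hA x (mem_insert_of_mem hx)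
      set Z := Y.filter fun y => ∀ a ∈ A, y ∈ B a with hZ
      have h4 : (Y.filter fun y => ∀ x ∈ insert a A, y ∈ B x) = Z ∩ B a := by
        ext y
        simp only [hZ, mem_filter, mem_inter, mem_insert, forall_eq_or_imp]
        tauto
      rw [h4]
      have h5 : hh D (B a) ≤ hh D (Z ∪ B a) := by
        refine h.row a _ subset_union_right (union_subset ?_ (h.sub a))
        intro y hy
        exact mem_mt.1 (h2 (mem_filter.1 hy).1) a (hA a (mem_insert_self _ _))
      have h6 := h_submod D Z (B a)
      linarith
  have h3 := key (univ.filter fun a => Rr D a z) (fun a ha => (mem_filter.1 ha).2)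
  have h4 : (Y.filter fun y => ∀ a ∈ univ.filter (fun a => Rr D a z), y ∈ B a) = mt D B z := by
    ext y
    simp only [mem_filter, mem_univ, true_and, mem_mt]
    exact ⟨fun h => h.2, fun h => ⟨h1 (mem_mt.2 h), h⟩⟩
  rwa [h4] at h3

/-- The gap inequality. -/
theorem MinPair.gap {D : OGraph V} {B U : V → Finset V} (h : MinPair D B U) :
    ∑ a, (hh D (U a) - hh D (B a)) ≤ ∑ z, (hh D (mt D U z) - hh D (mt D B z)) := by
  classical
  have hsub : ∀ z, mt D B z ⊆ mt D U z := fun z y hy => mem_mt.2 fun a ha =>
    h.sub a (mem_mt.1 hy a ha)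
  choose k hk1 hk2 using fun a => exists_k D (h.sub a)
  choose c hc1 hc2 using fun z => exists_k D (hsub z)
  have main : ∀ W : Finset V, ∑ a, (k a W - k a ∅) ≤ ∑ z, (c z W - c z ∅) := by
    intro W
    induction W using Finset.induction_on with
    | empty => simp
    | insert b W hb ih =>
      have hstep : ∑ a, (k a (insert b W) - k a W) ≤ ∑ z, (c z (insert b W) - c z W) := by
        refine layer D _ _ (univ.filter fun a => b ∈ U a ∧ b ∉ B a)
          (univ.filter fun z => b ∈ mt D U z) ?_ ?_ ?_ ?_
        · intro a ha
          have hab : b ∉ U a ∨ b ∈ B a := by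
            by_contra hcon
            push Not at hcon
            exact ha (mem_filter.2 ⟨mem_univ _, hcon⟩)
          obtain ⟨Y, hY1, hY2, hY3, hY4⟩ := hk1 a W
          have h5 : k a (insert b W) ≤ hh D Y := by
            refine hk2 a _ Y hY1 ?_ hY3
            intro x hx
            obtain ⟨hx1, hx2⟩ := mem_inter.1 hx
            rcases mem_insert.1 hx1 with rfl | hx1
            · rcases hab with hab | hab
              · exact absurd hx2 hab
              · exact hY1 hab
            · exact hY2 (mem_inter.2 ⟨hx1, hx2⟩)
          linarith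
        · intro z
          obtain ⟨Y, hY1, hY2, hY3, hY4⟩ := hc1 z (insert b W)
          have h5 : c z W ≤ hh D Y := hc2 z _ Y hY1
            ((inter_subset_inter_right (subset_insert b W)).trans hY2) hY3
          linarith
        · intro a ha z hz haz
          obtain ⟨Y, hY1, hY2, hY3, hY4⟩ := hc1 z (insert b W)
          obtain ⟨Y', hY1', hY2', hY3', hY4'⟩ := hk1 a W
          have hbz : b ∈ mt D U z := (mem_filter.1 hz).2
          have hMU : mt D U z ⊆ U a := fun y hy => mem_mt.1 hy a haz
          have hmB : mt D B z ⊆ B a := fun y hy => mem_mt.1 hy a haz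
          have h5 : k a (insert b W) ≤ hh D (Y ∪ Y') := by
            refine hk2 a _ _ (hY1'.trans subset_union_right) ?_
              (union_subset (hY3.trans hMU) hY3')
            intro x hx
            obtain ⟨hx1, hx2⟩ := mem_inter.1 hx
            rcases mem_insert.1 hx1 with rfl | hx1
            · exact mem_union_left _ (hY2 (mem_inter.2 ⟨mem_insert_self _ _, hbz⟩))
            · exact mem_union_right _ (hY2' (mem_inter.2 ⟨hx1, hx2⟩))
          have h6 : c z W ≤ hh D (Y ∩ Y') := by
            refine hc2 z _ _ (subset_inter hY1 (hmB.trans hY1')) ?_ (inter_subset_left.trans hY3)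
            intro x hx
            obtain ⟨hx1, hx2⟩ := mem_inter.1 hx
            exact mem_inter.2 ⟨hY2 (mem_inter.2 ⟨mem_insert_of_mem hx1, hx2⟩),
              hY2' (mem_inter.2 ⟨hx1, hMU hx2⟩)⟩
          have h7 := h_submod D Y Y'
          linarith
        · intro S hS
          obtain ⟨S', h1, h2, h3⟩ := h.col b S fun a ha => (mem_filter.1 (hS ha)).2
          exact ⟨S', fun z hz => mem_filter.2 ⟨mem_univ _, h1 z hz⟩, h2, h3⟩
      have e1 : ∑ a, (k a (insert b W) - k a ∅) =
          ∑ a, (k a (insert b W) - k a W) + ∑ a, (k a W - k a ∅) := by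
        rw [← sum_add_distrib]
        exact sum_congr rfl fun a _ => by ring
      have e2 : ∑ z, (c z (insert b W) - c z ∅) =
          ∑ z, (c z (insert b W) - c z W) + ∑ z, (c z W - c z ∅) := by
        rw [← sum_add_distrib]
        exact sum_congr rfl fun a _ => by ring
      rw [e1, e2]
      linarith
  have h1 : ∑ a, (hh D (U a) - hh D (B a)) ≤ ∑ a, (k a univ - k a ∅) := by
    refine sum_le_sum fun a _ => ?_
    obtain ⟨Y, hY1, hY2, hY3, hY4⟩ := hk1 a univ
    rw [univ_inter] at hY2
    have e : Y = U a := Subset.antisymm hY3 hY2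
    rw [e] at hY4
    have h5 : k a ∅ ≤ hh D (B a) := hk2 a ∅ (B a) (Subset.refl _) (by simp) (h.sub a)
    linarith
  have h2 : ∑ z, (c z univ - c z ∅) ≤ ∑ z, (hh D (mt D U z) - hh D (mt D B z)) := by
    refine sum_le_sum fun z _ => ?_
    obtain ⟨Y, hY1, hY2, hY3, hY4⟩ := hc1 z ∅
    have h5 : c z univ ≤ hh D (mt D U z) := hc2 z univ _ (hsub z) (by simp) (Subset.refl _)
    have h6 := h.meet z Y hY1 hY3
    linarith
  exact h1.trans ((main univ).trans h2)

end Vale.Agent.P038.H419
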